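import Vale.Agent.P272.K.C2.Wirt
import Vale.Agent.P281.H864.K.Basic
import Mathlib.Analysis.Matrix.PosDef
import Mathlib.Analysis.Matrix.Order
import Mathlib.Topology.Instances.Matrix

/-!
# P281, project T-L, block B3 (helper189): linear algebra and measure theory for the energy bound
-/

open Set Filter Metric MeasureTheory Matrix Vale.Agent.P272.K
open scoped Topology ContDiff ComplexConjugate ComplexOrder ENNReal NNReal MatrixOrder

noncomputable section

namespace Vale.Agent.P281.H189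

variable {d : ℕ}

theorem trace_mul_nonneg {A B : Matrix (Fin d) (Fin d) ℂ} (hA : A.PosSemidef)
    (hB : B.PosSemidef) : 0 ≤ (A * B).trace.re := by
  obtain ⟨R, hR⟩ := CStarAlgebra.nonneg_iff_eq_star_mul_self.mp hA.nonneg
  rw [star_eq_conjTranspose] at hR
  have h := (hB.mul_mul_conjTranspose_same R).trace_nonneg
  rw [Matrix.trace_mul_comm, ← Matrix.mul_assoc, ← hR] at h
  exact (Complex.le_def.1 h).1

/-- The Levi form. -/
def lev (H : Matrix (Fin d) (Fin d) ℂ) (ξ : Cm d) : ℝ :=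
  (∑ j, ∑ k, H j k * ξ j * conj (ξ k)).re

theorem lev_add (H K : Matrix (Fin d) (Fin d) ℂ) (ξ : Cm d) :
    lev (H + K) ξ = lev H ξ + lev K ξ := by
  simp only [lev, Matrix.add_apply, add_mul, Finset.sum_add_distrib, Complex.add_re]

theorem lev_smul (c : ℝ) (H : Matrix (Fin d) (Fin d) ℂ) (ξ : Cm d) :
    lev ((c : ℂ) • H) ξ = c * lev H ξ := by
  simp only [lev, Matrix.smul_apply, smul_eq_mul, mul_assoc, ← Finset.mul_sum,
    Complex.re_ofReal_mul]

theorem lev_star (H : Matrix (Fin d) (Fin d) ℂ) (x : Cm d) :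
    (star x ⬝ᵥ (H *ᵥ x)).re = lev H (star x) := by
  simp only [lev, dotProduct, mulVec, Finset.mul_sum, Pi.star_apply]
  congr 1
  refine Finset.sum_congr rfl fun j _ => Finset.sum_congr rfl fun k _ => ?_
  have h2 : (starRingEnd ℂ) (star (x k)) = x k := by
    rw [starRingEnd_apply, star_star]
  rw [h2]
  ring

theorem lev_nonneg {H : Matrix (Fin d) (Fin d) ℂ} (hH : H.PosSemidef) (ξ : Cm d) :
    0 ≤ lev H ξ := by
  have h := hH.dotProduct_mulVec_nonneg (star ξ)
  have h1 := (Complex.le_def.1 h).1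
  rw [lev_star, star_star] at h1
  simpa using h1

/-- The matrix `p ⊗ p̄`. -/
def rk (p : Cm d) : Matrix (Fin d) (Fin d) ℂ := Matrix.of fun j k => p j * conj (p k)

theorem rk_herm (p : Cm d) : (rk p).IsHermitian := by
  ext j k
  simp [rk, Matrix.conjTranspose_apply, mul_comm]

theorem lev_rk (p ξ : Cm d) : lev (rk p) ξ = ‖∑ j, p j * ξ j‖ ^ 2 := by
  have h : ∑ j, ∑ k, rk p j k * ξ j * conj (ξ k) =
      (∑ j, p j * ξ j) * conj (∑ j, p j * ξ j) := by
    rw [map_sum, Finset.sum_mul_sum]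
    refine Finset.sum_congr rfl fun j _ => Finset.sum_congr rfl fun k _ => ?_
    rw [rk, Matrix.of_apply, map_mul]
    ring
  rw [lev, h, Complex.mul_conj, Complex.ofReal_re, Complex.normSq_eq_norm_sq]

theorem posSemidef_of_lev {Q : Matrix (Fin d) (Fin d) ℂ} (hQ : Q.IsHermitian)
    (h : ∀ ξ, 0 ≤ lev Q ξ) : Q.PosSemidef := by
  refine Matrix.PosSemidef.of_dotProduct_mulVec_nonneg hQ fun x => ?_
  have h1 : (star x ⬝ᵥ (Q *ᵥ x)).im = 0 := hQ.im_star_dotProduct_mulVec_self x
  rw [Complex.le_def]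
  refine ⟨?_, by simpa using h1.symm⟩
  rw [lev_star]
  exact h _

/-- The density of `L ∧ w^(d-1)`. -/
def tq (w H : Matrix (Fin d) (Fin d) ℂ) : ℝ := (w.det * (w⁻¹ * H).trace).re

theorem det_re {w : Matrix (Fin d) (Fin d) ℂ} (hw : w.PosDef) : w.det = ((w.det.re : ℝ) : ℂ) ∧
    0 < w.det.re := by
  have h := Complex.pos_iff.1 hw.det_pos
  exact ⟨Complex.ext rfl (by simpa using h.2.symm), h.1⟩

theorem tq_eq {w : Matrix (Fin d) (Fin d) ℂ} (hw : w.PosDef) (H : Matrix (Fin d) (Fin d) ℂ) :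
    tq w H = w.det.re * (w⁻¹ * H).trace.re := by
  rw [tq, (det_re hw).1, Complex.re_ofReal_mul, Complex.ofReal_re]

/-- The pointwise inequality. -/
theorem pt {w H : Matrix (Fin d) (Fin d) ℂ} (hw : w.PosDef) (hH : H.IsHermitian) (p : Cm d)
    (C κ : ℝ) (h : ∀ ξ, κ * ‖∑ j, p j * ξ j‖ ^ 2 - C * lev w ξ ≤ lev H ξ) :
    κ * tq w (rk p) ≤ tq w H + d * C * w.det.re := by
  set Q : Matrix (Fin d) (Fin d) ℂ := H + ((C : ℂ) • w + ((-κ : ℝ) : ℂ) • rk p) with hQ
  have h1 : Q.PosSemidef := by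
    refine posSemidef_of_lev ?_ fun ξ => ?_
    · refine hH.add (Matrix.IsHermitian.add ?_ ?_)
      · rw [Matrix.IsHermitian, conjTranspose_smul, hw.isHermitian]
        simp
      · rw [Matrix.IsHermitian, conjTranspose_smul, rk_herm]
        simp
    · rw [hQ, lev_add, lev_add, lev_smul, lev_smul, lev_rk]
      have := h ξ
      linarith
  have h2 : 0 ≤ (w⁻¹ * Q).trace.re := trace_mul_nonneg hw.inv.posSemidef h1
  have hdet : IsUnit w.det := isUnit_iff_ne_zero.2 hw.det_pos.ne'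
  have h3 : (w⁻¹ * Q).trace.re = (w⁻¹ * H).trace.re + C * d - κ * (w⁻¹ * rk p).trace.re := by
    rw [hQ, Matrix.mul_add, Matrix.mul_add, Matrix.mul_smul, Matrix.mul_smul,
      Matrix.nonsing_inv_mul w hdet, Matrix.trace_add, Matrix.trace_add, Matrix.trace_smul,
      Matrix.trace_smul, Matrix.trace_one, Fintype.card_fin, smul_eq_mul, smul_eq_mul,
      Complex.add_re, Complex.add_re, Complex.re_ofReal_mul, Complex.re_ofReal_mul,
      Complex.natCast_re]
    ring
  rw [tq_eq hw, tq_eq hw]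
  have h4 := (det_re hw).2
  have h5 : 0 ≤ w.det.re * (w⁻¹ * Q).trace.re := mul_nonneg h4.le h2
  rw [h3] at h5
  linarith

theorem tq_adj {w : Matrix (Fin d) (Fin d) ℂ} (hw : w.PosDef) (H : Matrix (Fin d) (Fin d) ℂ) :
    tq w H = (w.adjugate * H).trace.re := by
  have hdet : w.det ≠ 0 := hw.det_pos.ne'
  have h : w⁻¹ = (w.det)⁻¹ • w.adjugate := by
    rw [Matrix.inv_def, Ring.inverse_eq_inv']
  rw [tq, h, Matrix.smul_mul, Matrix.trace_smul, smul_eq_mul, ← mul_assoc,
    mul_inv_cancel₀ hdet, one_mul]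

theorem tq_rk_nonneg {w : Matrix (Fin d) (Fin d) ℂ} (hw : w.PosDef) (p : Cm d) :
    0 ≤ tq w (rk p) := by
  rw [tq_eq hw]
  refine mul_nonneg (det_re hw).2.le (trace_mul_nonneg hw.inv.posSemidef
    (posSemidef_of_lev (rk_herm p) fun ξ => ?_))
  rw [lev_rk]
  positivity

/-- Continuity. -/
theorem continuousOn_tq {U : Set (Cm d)} {w H : Cm d → Matrix (Fin d) (Fin d) ℂ}
    (hw : ∀ z ∈ U, (w z).PosDef) (hwc : ∀ j k, ContinuousOn (fun z => w z j k) U)
    (hHc : ∀ j k, ContinuousOn (fun z => H z j k) U) : ContinuousOn (fun z => tq (w z) (H z)) U := by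
  have h1 : ContinuousOn w U := continuousOn_pi.2 fun j => continuousOn_pi.2 fun k => hwc j k
  have h2 : ContinuousOn (fun z => (w z).adjugate) U :=
    (Continuous.matrix_adjugate continuous_id).comp_continuousOn h1
  have h4 : ContinuousOn (fun z => ((w z).adjugate * H z).trace.re) U := by
    refine Complex.continuous_re.comp_continuousOn ?_
    simp only [Matrix.trace, Matrix.diag, Matrix.mul_apply]
    exact continuousOn_finsetSum _ fun j _ => continuousOn_finsetSum _ fun k _ =>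
      ((continuous_apply_apply j k).comp_continuousOn h2).mul (hHc k j)
  exact h4.congr fun z hz => tq_adj (hw z hz) _

end Vale.Agent.P281.H189
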