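import Vale.Agent.P281.H969.TL.Spec
import Vale.Agent.P281.H189.EnAlg

/-!
# P281, project T-L, block B3 (helper189): the energy of `log |u|`

`en_of : GreenStmt → HessStmt → EnStmt`: Green's formula for `log (A + s² M + ε)`, then `ε → 0`.
-/

open Set Filter Metric MeasureTheory Vale.Agent.P281 Vale.Agent.P272.K
open Vale.Agent.P281.H64.TK

open scoped Topology ContDiff ComplexConjugate ComplexOrder ENNReal NNReal

noncomputable section

namespace Vale.Agent.P281.H189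

open Vale.Agent.P281.H969.TL

theorem two_le : (2 : WithTop ℕ∞) ≤ ((⊤ : ℕ∞) : WithTop ℕ∞) := by
  norm_cast

section
variable {d : ℕ} {E Γ : Type} [TopologicalSpace E] [Group Γ] [MulAction Γ E]
  {S : Sheets d E Γ} {w : Fin S.N → Cm d → Matrix (Fin d) (Fin d) ℂ} {C : ℝ} {Z : Set E}
  {u : E → ℂ} {A M : E → ℝ}

/-- The potential. -/
def Lf (A M : E → ℝ) (s ε : ℝ) (e : E) : ℝ := Real.log (A e + s ^ 2 * M e + ε)

theorem Lf_smooth (h : IsPair S w C Z u A M) {s ε : ℝ} (hε : 0 < ε) (i : Fin S.N) :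
    ContDiffOn ℝ ∞ (fun z => Lf A M s ε (S.σ i z)) (ball 0 3) := by
  have h1 := (h.smooth i).1
  have h2 := (h.smooth i).2
  refine ContDiffOn.log ((h1.add (contDiffOn_const.mul h2)).add contDiffOn_const) fun z hz => ?_
  obtain ⟨h3, h4⟩ := h.nonneg (S.σ i z)
  have h5 : 0 ≤ s ^ 2 * M (S.σ i z) := by positivity
  have : 0 < A (S.σ i z) + s ^ 2 * M (S.σ i z) + ε := by linarith
  exact this.ne'

theorem Lf_at (h : IsPair S w C Z u A M) {s ε : ℝ} (hε : 0 < ε) (i : Fin S.N) {z : Cm d}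
    (hz : z ∈ ball (0 : Cm d) 3) : ContDiffAt ℝ ∞ (fun z => Lf A M s ε (S.σ i z)) z :=
  (Lf_smooth h hε i).contDiffAt (isOpen_ball.mem_nhds hz)

theorem fderiv_sum (f : Cm d → ℂ) (z ξ : Cm d) :
    fderiv ℂ f z ξ = ∑ j, dd j f z * ξ j := by
  have h1 : fderiv ℂ f z ξ = ∑ k, ξ k • fderiv ℂ f z (Pi.single k 1) := by
    conv_lhs => rw [pi_eq_sum_univ' ξ]
    rw [map_sum]
    exact Finset.sum_congr rfl fun k _ => map_smul _ _ _
  rw [h1]
  exact Finset.sum_congr rfl fun j _ => by rw [smul_eq_mul, mul_comm]; rfl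

/-- `∂ log u`. -/
def pv (S : Sheets d E Γ) (u : E → ℂ) (i : Fin S.N) (z : Cm d) : Cm d :=
  fun j => dd j (fun z => u (S.σ i z)) z / u (S.σ i z)

theorem pv_sum (i : Fin S.N) (z ξ : Cm d) :
    fderiv ℂ (fun z => u (S.σ i z)) z ξ / u (S.σ i z) = ∑ j, pv S u i z j * ξ j := by
  rw [fderiv_sum, Finset.sum_div]
  exact Finset.sum_congr rfl fun j _ => by rw [pv]; ring

/-- The density. -/
def Dn (S : Sheets d E Γ) (w : Fin S.N → Cm d → Matrix (Fin d) (Fin d) ℂ) (C : ℝ) (A M : E → ℝ)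
    (s ε : ℝ) (i : Fin S.N) (z : Cm d) : ℝ :=
  tq (w i z) (cHess (fun z => Lf A M s ε (S.σ i z)) z) + d * C * (w i z).det.re

/-- The coefficient. -/
def kap (S : Sheets d E Γ) (u : E → ℂ) (M : E → ℝ) (s ε : ℝ) (i : Fin S.N) (z : Cm d) : ℝ :=
  ‖u (S.σ i z)‖ ^ 2 * M (S.σ i z) * (s ^ 2 * M (S.σ i z)) /
    (‖u (S.σ i z)‖ ^ 2 * M (S.σ i z) + s ^ 2 * M (S.σ i z) + ε) ^ 2

theorem kap_nonneg (h : IsPair S w C Z u A M) {s ε : ℝ} (i : Fin S.N) (z : Cm d) :
    0 ≤ kap S u M s ε i z := by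
  have h4 := (h.nonneg (S.σ i z)).2
  rw [kap]
  positivity

theorem off (hHs : HessStmt) (hC : 0 ≤ C) (hw : Kah S w) (h : IsPair S w C Z u A M) {s ε : ℝ}
    (hs : 0 < s) (hε : 0 < ε) (i : Fin S.N) {z : Cm d} (hz : z ∈ ball (0 : Cm d) 3)
    (hZ : S.σ i z ∉ Z) :
    kap S u M s ε i z * tq (w i z) (rk (pv S u i z)) ≤ Dn S w C A M s ε i z := by
  have hpd := hw.posDef i z hz
  have hsm : ContDiffAt ℝ 2 (fun z => Lf A M s ε (S.σ i z)) z :=
    (Lf_at h hε i hz).of_le two_le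
  refine pt hpd (C2.cHess_isHermitian hsm) _ C _ fun ξ => ?_
  obtain ⟨hu1, hu2⟩ := h.hol i z hz hZ
  obtain ⟨hM, hA⟩ := h.eq _ hZ
  have hMs : ContDiffAt ℝ ∞ (fun z => M (S.σ i z)) z :=
    (h.smooth i).2.contDiffAt (isOpen_ball.mem_nhds hz)
  obtain ⟨c, hc0, hc1, hc⟩ := hHs d (fun z => u (S.σ i z)) (fun z => M (S.σ i z)) z s ε ξ hs hε
    hu1 hu2 hMs hM
  have hcu := h.curv i z hz hZ ξ
  have hev : (fun z => Lf A M s ε (S.σ i z)) =ᶠ[𝓝 z]
      fun z => Real.log (‖u (S.σ i z)‖ ^ 2 * M (S.σ i z) + s ^ 2 * M (S.σ i z) + ε) := by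
    filter_upwards [h.isOpen i z hz hZ] with z' hz'
    rw [Lf, (h.eq _ hz').2]
  have hcong := C2.cHess_congr hev
  have h1 : lev (cHess (fun z => Lf A M s ε (S.σ i z)) z) ξ =
      (∑ j, ∑ k, cHess (fun z => Real.log (‖u (S.σ i z)‖ ^ 2 * M (S.σ i z) +
        s ^ 2 * M (S.σ i z) + ε)) z j k * ξ j * conj (ξ k)).re := by
    rw [hcong]; rfl
  have hwn : 0 ≤ lev (w i z) ξ := lev_nonneg hpd.posSemidef ξ
  have hcu' : -(C * lev (w i z) ξ) ≤
      (∑ j, ∑ k, cHess (fun z => Real.log (M (S.σ i z))) z j k * ξ j * conj (ξ k)).re := hcu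
  have h2 : kap S u M s ε i z * ‖∑ j, pv S u i z j * ξ j‖ ^ 2 =
      ‖u (S.σ i z)‖ ^ 2 * M (S.σ i z) * (s ^ 2 * M (S.σ i z)) /
        (‖u (S.σ i z)‖ ^ 2 * M (S.σ i z) + s ^ 2 * M (S.σ i z) + ε) ^ 2 *
      ‖fderiv ℂ (fun z => u (S.σ i z)) z ξ / u (S.σ i z)‖ ^ 2 := by
    rw [pv_sum, kap]
  rw [h1, h2]
  refine le_trans ?_ hc
  have h3 : 0 ≤ C * lev (w i z) ξ := mul_nonneg hC hwn
  have h4 : c * -(C * lev (w i z) ξ) ≤ c * (∑ j, ∑ k, cHess (fun z => Real.log (M (S.σ i z))) z j k *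
      ξ j * conj (ξ k)).re := mul_le_mul_of_nonneg_left hcu' hc0
  nlinarith

theorem Dn_cont (hw : Kah S w) (h : IsPair S w C Z u A M) {s ε : ℝ}
    (hε : 0 < ε) (i : Fin S.N) : ContinuousOn (Dn S w C A M s ε i) (ball 0 3) := by
  have hwc : ∀ j k, ContinuousOn (fun z => w i z j k) (ball 0 3) := fun j k =>
    (hw.smooth i j k).continuousOn
  refine ContinuousOn.add ?_ (continuousOn_const.mul ?_)
  · refine continuousOn_tq (fun z hz => hw.posDef i z hz) hwc fun j k z hz => ?_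
    exact (C2.contDiffAt_cHess (m := 0) ((Lf_at h hε i hz).of_le (m := 2) two_le)
      (by norm_num) j k).continuousAt.continuousWithinAt
  · refine Complex.continuous_re.comp_continuousOn ?_
    have h1 : ContinuousOn (w i) (ball 0 3) :=
      continuousOn_pi.2 fun j => continuousOn_pi.2 fun k => hwc j k
    exact (Continuous.matrix_det continuous_id).comp_continuousOn h1

theorem Dn_nonneg (hHs : HessStmt) (hC : 0 ≤ C) (hw : Kah S w) (h : IsPair S w C Z u A M) {s ε : ℝ}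
    (hs : 0 < s) (hε : 0 < ε) (i : Fin S.N) {z : Cm d} (hz : z ∈ ball (0 : Cm d) 3) :
    0 ≤ Dn S w C A M s ε i z := by
  by_contra hlt
  push Not at hlt
  have hc : ContinuousAt (Dn S w C A M s ε i) z :=
    (Dn_cont hw h hε i).continuousAt (isOpen_ball.mem_nhds hz)
  have h1 : ∀ᶠ z' in 𝓝 z, Dn S w C A M s ε i z' < 0 := hc.eventually_lt_const hlt
  have h2 : ∀ᶠ z' in 𝓝 z, z' ∈ ball (0 : Cm d) 3 := isOpen_ball.mem_nhds hz
  obtain ⟨z', h3, h4, h5⟩ := ((h.dense i z hz).and_eventually (h1.and h2)).exists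
  have h6 := off hHs hC hw h hs hε i h5 h3
  have h7 : 0 ≤ kap S u M s ε i z' * tq (w i z') (rk (pv S u i z')) :=
    mul_nonneg (kap_nonneg h i z') (tq_rk_nonneg (hw.posDef i z' h5) _)
  linarith

theorem integrableOn_P (S : Sheets d E Γ) [ContinuousConstSMul Γ E] (i : Fin S.N) {f : Cm d → ℝ}
    (hf : ContinuousOn f (ball 0 3)) : IntegrableOn f (S.P i) := by
  have h1 : IntegrableOn f (closedBall (0 : Cm d) 1) :=
    (hf.mono H864.K.cball13).integrableOn_compact (isCompact_closedBall _ _)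
  exact h1.mono_set ((H864.K.P_subset S i).trans ball_subset_closedBall)

theorem isOpen_off (h : IsPair S w C Z u A M) (i : Fin S.N) :
    IsOpen (ball (0 : Cm d) 3 ∩ {z | S.σ i z ∉ Z}) := by
  rw [isOpen_iff_mem_nhds]
  rintro z ⟨hz, hZ⟩
  filter_upwards [isOpen_ball.mem_nhds hz, h.isOpen i z hz hZ] with z' h1 h2
  exact ⟨h1, h2⟩

theorem P_off_sub [ContinuousConstSMul Γ E] (i : Fin S.N) :
    S.P i ∩ {z | S.σ i z ∉ Z} ⊆ ball (0 : Cm d) 3 ∩ {z | S.σ i z ∉ Z} :=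
  inter_subset_inter_left _ (H864.K.P_subset3 S i)

theorem meas_off [ContinuousConstSMul Γ E] (h : IsPair S w C Z u A M) (i : Fin S.N) :
    MeasurableSet (S.P i ∩ {z | S.σ i z ∉ Z}) := by
  have h1 : S.P i ∩ {z | S.σ i z ∉ Z} = S.P i ∩ (ball (0 : Cm d) 3 ∩ {z | S.σ i z ∉ Z}) := by
    ext z
    constructor
    · rintro ⟨h2, h3⟩
      exact ⟨h2, H864.K.P_subset3 S i h2, h3⟩
    · rintro ⟨h2, -, h3⟩
      exact ⟨h2, h3⟩
  rw [h1]
  exact (H864.K.meas_P S i).inter (isOpen_off h i).measurableSet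

/-- The integrand. -/
def Fd (S : Sheets d E Γ) (w : Fin S.N → Cm d → Matrix (Fin d) (Fin d) ℂ) (u : E → ℂ) (M : E → ℝ)
    (s ε : ℝ) (i : Fin S.N) (z : Cm d) : ℝ :=
  kap S u M s ε i z * tq (w i z) (rk (pv S u i z))

theorem Fd_cont (hw : Kah S w) (h : IsPair S w C Z u A M) {s ε : ℝ} (hε : 0 < ε) (i : Fin S.N) :
    ContinuousOn (Fd S w u M s ε i) (ball (0 : Cm d) 3 ∩ {z | S.σ i z ∉ Z}) := by
  have hu : ContinuousOn (fun z => u (S.σ i z)) (ball (0 : Cm d) 3 ∩ {z | S.σ i z ∉ Z}) :=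
    fun z hz => (h.hol i z hz.1 hz.2).1.continuousAt.continuousWithinAt
  have hM : ContinuousOn (fun z => M (S.σ i z)) (ball (0 : Cm d) 3 ∩ {z | S.σ i z ∉ Z}) :=
    (h.smooth i).2.continuousOn.mono inter_subset_left
  have hwc : ∀ j k, ContinuousOn (fun z => w i z j k) (ball (0 : Cm d) 3 ∩ {z | S.σ i z ∉ Z}) :=
    fun j k => (hw.smooth i j k).continuousOn.mono inter_subset_left
  refine ContinuousOn.mul ?_ ?_
  · have h1 : ContinuousOn (fun z => ‖u (S.σ i z)‖ ^ 2 * M (S.σ i z))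
        (ball (0 : Cm d) 3 ∩ {z | S.σ i z ∉ Z}) := (hu.norm.pow 2).mul hM
    have h2 : ContinuousOn (fun z => s ^ 2 * M (S.σ i z))
        (ball (0 : Cm d) 3 ∩ {z | S.σ i z ∉ Z}) := continuousOn_const.mul hM
    refine ContinuousOn.div (h1.mul h2) (((h1.add h2).add continuousOn_const).pow 2) fun z _ => ?_
    have h3 := (h.nonneg (S.σ i z)).2
    have h4 : 0 ≤ ‖u (S.σ i z)‖ ^ 2 * M (S.σ i z) := by positivity
    have h5 : 0 ≤ s ^ 2 * M (S.σ i z) := by positivity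
    have h6 : 0 < ‖u (S.σ i z)‖ ^ 2 * M (S.σ i z) + s ^ 2 * M (S.σ i z) + ε := by linarith
    positivity
  · have hp : ∀ j, ContinuousOn (fun z => pv S u i z j)
        (ball (0 : Cm d) 3 ∩ {z | S.σ i z ∉ Z}) := by
      intro j z hz
      obtain ⟨h1, h2⟩ := h.hol i z hz.1 hz.2
      refine ContinuousAt.continuousWithinAt ?_
      refine ContinuousAt.div ?_ h1.continuousAt h2
      exact h1.fderiv.continuousAt.clm_apply continuousAt_const
    refine continuousOn_tq (fun z hz => hw.posDef i z hz.1) hwc fun j k => ?_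
    exact (hp j).mul (Complex.continuous_conj.comp_continuousOn (hp k))

theorem Fd_mono (hw : Kah S w) (h : IsPair S w C Z u A M) {s ε ε' : ℝ} (hε' : 0 < ε') (hle : ε' ≤ ε)
    (i : Fin S.N) {z : Cm d} (hz : z ∈ ball (0 : Cm d) 3) :
    Fd S w u M s ε i z ≤ Fd S w u M s ε' i z := by
  refine mul_le_mul_of_nonneg_right ?_ (tq_rk_nonneg (hw.posDef i z hz) _)
  have h3 := (h.nonneg (S.σ i z)).2
  have h4 : 0 ≤ ‖u (S.σ i z)‖ ^ 2 * M (S.σ i z) := by positivity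
  have h5 : 0 ≤ s ^ 2 * M (S.σ i z) := by positivity
  rw [kap, kap]
  refine div_le_div_of_nonneg_left (mul_nonneg h4 h5) (by positivity) ?_
  exact pow_le_pow_left₀ (by positivity) (by linarith) 2

theorem Fd_tendsto (h : IsPair S w C Z u A M) {s : ℝ} (hs : 0 < s) (i : Fin S.N) {z : Cm d}
    (hz : z ∈ ball (0 : Cm d) 3) (hZ : S.σ i z ∉ Z) :
    Tendsto (fun n : ℕ => Fd S w u M s (1 / ((n : ℝ) + 1)) i z) atTop
      (𝓝 (enD (w i z) (fun z => u (S.σ i z)) s z)) := by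
  obtain ⟨hu1, hu2⟩ := h.hol i z hz hZ
  obtain ⟨hM, hA⟩ := h.eq _ hZ
  have hun : 0 < ‖u (S.σ i z)‖ := norm_pos_iff.2 hu2
  have h1 : enD (w i z) (fun z => u (S.σ i z)) s z =
      ‖u (S.σ i z)‖ ^ 2 * M (S.σ i z) * (s ^ 2 * M (S.σ i z)) /
        (‖u (S.σ i z)‖ ^ 2 * M (S.σ i z) + s ^ 2 * M (S.σ i z) + 0) ^ 2 *
        tq (w i z) (rk (pv S u i z)) := by
    have h2 : s ^ 2 * ‖u (S.σ i z)‖ ^ 2 / (‖u (S.σ i z)‖ ^ 2 + s ^ 2) ^ 2 =
        ‖u (S.σ i z)‖ ^ 2 * M (S.σ i z) * (s ^ 2 * M (S.σ i z)) /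
        (‖u (S.σ i z)‖ ^ 2 * M (S.σ i z) + s ^ 2 * M (S.σ i z) + 0) ^ 2 := by
      field_simp
      ring
    rw [← h2]
    rfl
  rw [h1]
  refine Tendsto.mul_const _ ?_
  refine Tendsto.div tendsto_const_nhds ((tendsto_const_nhds.add
    tendsto_one_div_add_atTop_nhds_zero_nat).pow 2) ?_
  positivity

end

section
variable {d : ℕ} {E Γ : Type} [TopologicalSpace E] [T2Space E] [SimplyConnectedSpace E] [Group Γ]
  [MulAction Γ E] [ContinuousConstSMul Γ E]
  {S : Sheets d E Γ} {w : Fin S.N → Cm d → Matrix (Fin d) (Fin d) ℂ} {C : ℝ} {Z : Set E}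
  {u : E → ℂ} {A M : E → ℝ}

theorem bound_eps (hG : GreenStmt) (hHs : HessStmt) (hd : 0 < d) (hC : 0 ≤ C) (hw : Kah S w)
    (h : IsPair S w C Z u A M) {s ε : ℝ} (hs : 0 < s) (hε : 0 < ε) :
    ∑ i, ∫⁻ z in S.P i ∩ {z | S.σ i z ∉ Z}, ENNReal.ofReal (Fd S w u M s ε i z) ≤
      ENNReal.ofReal (d * C * volS S w) := by
  have hwc : ∀ i, ContinuousOn (fun z => (w i z).det.re) (ball 0 3) := fun i => by
    refine Complex.continuous_re.comp_continuousOn ?_
    have h1 : ContinuousOn (w i) (ball 0 3) :=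
      continuousOn_pi.2 fun j => continuousOn_pi.2 fun k => (hw.smooth i j k).continuousOn
    exact (Continuous.matrix_det continuous_id).comp_continuousOn h1
  have htc : ∀ i, ContinuousOn
      (fun z => tq (w i z) (cHess (fun z => Lf A M s ε (S.σ i z)) z)) (ball 0 3) := fun i => by
    refine continuousOn_tq (fun z hz => hw.posDef i z hz)
      (fun j k => (hw.smooth i j k).continuousOn) fun j k z hz => ?_
    exact (C2.contDiffAt_cHess (m := 0) ((Lf_at h hε i hz).of_le (m := 2) two_le)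
      (by norm_num) j k).continuousAt.continuousWithinAt
  have hint : ∀ i, IntegrableOn (Dn S w C A M s ε i) (S.P i) := fun i =>
    integrableOn_P S i (Dn_cont hw h hε i)
  have hdet : ∀ i, IntegrableOn (fun z => (w i z).det.re) (S.P i) := fun i =>
    integrableOn_P S i (hwc i)
  have htq : ∀ i, IntegrableOn
      (fun z => tq (w i z) (cHess (fun z => Lf A M s ε (S.σ i z)) z)) (S.P i) := fun i =>
    integrableOn_P S i (htc i)
  have hgreen : ∑ i, ∫ z in S.P i, tq (w i z) (cHess (fun z => Lf A M s ε (S.σ i z)) z) = 0 :=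
    hG d E Γ S w (Lf A M s ε) hd hw
      (fun γ e => by rw [Lf, Lf, (h.inv γ e).2.1, (h.inv γ e).2.2.1]) (Lf_smooth h hε)
  have hsum : ∑ i, ∫ z in S.P i, Dn S w C A M s ε i z = d * C * volS S w := by
    have h1 : ∀ i, ∫ z in S.P i, Dn S w C A M s ε i z =
        (∫ z in S.P i, tq (w i z) (cHess (fun z => Lf A M s ε (S.σ i z)) z)) +
          d * C * ∫ z in S.P i, (w i z).det.re := by
      intro i
      rw [← integral_const_mul]
      exact integral_add (htq i) ((hdet i).const_mul _)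
    rw [Finset.sum_congr rfl fun i _ => h1 i, Finset.sum_add_distrib, hgreen, ← Finset.mul_sum,
      zero_add]
    rfl
  have hnn : ∀ i, ∀ z ∈ S.P i, 0 ≤ Dn S w C A M s ε i z := fun i z hz =>
    Dn_nonneg hHs hC hw h hs hε i (H864.K.P_subset3 S i hz)
  have hnn' : ∀ i, 0 ≤ᵐ[volume.restrict (S.P i)] Dn S w C A M s ε i := fun i =>
    (ae_restrict_iff' (H864.K.meas_P S i)).2 (ae_of_all _ fun z hz => hnn i z hz)
  calc ∑ i, ∫⁻ z in S.P i ∩ {z | S.σ i z ∉ Z}, ENNReal.ofReal (Fd S w u M s ε i z)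
      ≤ ∑ i, ∫⁻ z in S.P i, ENNReal.ofReal (Dn S w C A M s ε i z) := by
        refine Finset.sum_le_sum fun i _ => ?_
        refine le_trans (setLIntegral_mono' (meas_off h i) fun z hz => ?_)
          (lintegral_mono_set inter_subset_left)
        exact ENNReal.ofReal_le_ofReal (off hHs hC hw h hs hε i (H864.K.P_subset3 S i hz.1) hz.2)
    _ = ∑ i, ENNReal.ofReal (∫ z in S.P i, Dn S w C A M s ε i z) := by
        refine Finset.sum_congr rfl fun i _ => ?_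
        rw [ofReal_integral_eq_lintegral_ofReal (hint i) (hnn' i)]
    _ = ENNReal.ofReal (∑ i, ∫ z in S.P i, Dn S w C A M s ε i z) :=
        (ENNReal.ofReal_sum_of_nonneg fun i _ => integral_nonneg_of_ae (hnn' i)).symm
    _ = _ := by rw [hsum]

end

/-- **B3** from B3a and B3b. -/
theorem en_of (hG : GreenStmt) (hHs : HessStmt) : EnStmt := by
  intro d E Γ _ _ _ _ _ _ S w C Z u A M hd hC hw h s hs
  have hp : ∀ n : ℕ, (0 : ℝ) < 1 / ((n : ℝ) + 1) := fun n => by positivity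
  have hb : ∀ n : ℕ, ∑ i, ∫⁻ z in S.P i ∩ {z | S.σ i z ∉ Z},
      ENNReal.ofReal (Fd S w u M s (1 / ((n : ℝ) + 1)) i z) ≤ ENNReal.ofReal (d * C * volS S w) :=
    fun n => bound_eps hG hHs hd hC hw h hs (hp n)
  have ht : ∀ i, Tendsto (fun n : ℕ => ∫⁻ z in S.P i ∩ {z | S.σ i z ∉ Z},
      ENNReal.ofReal (Fd S w u M s (1 / ((n : ℝ) + 1)) i z)) atTop
      (𝓝 (∫⁻ z in S.P i ∩ {z | S.σ i z ∉ Z},
        ENNReal.ofReal (enD (w i z) (fun z => u (S.σ i z)) s z))) := by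
    intro i
    have hm := meas_off h i
    refine lintegral_tendsto_of_tendsto_of_monotone (fun n => ?_) ?_ ?_
    · exact (((Fd_cont hw h (hp n) i).aemeasurable (isOpen_off h i).measurableSet).mono_set
        (P_off_sub i)).ennreal_ofReal
    · refine (ae_restrict_iff' hm).2 (ae_of_all _ fun z hz n m hnm => ?_)
      refine ENNReal.ofReal_le_ofReal (Fd_mono hw h (hp m) ?_ i (H864.K.P_subset3 S i hz.1))
      exact one_div_le_one_div_of_le (by positivity) (by exact_mod_cast Nat.add_le_add_right hnm 1)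
    · refine (ae_restrict_iff' hm).2 (ae_of_all _ fun z hz => ?_)
      exact ENNReal.tendsto_ofReal (Fd_tendsto h hs i (H864.K.P_subset3 S i hz.1) hz.2)
  exact le_of_tendsto' (tendsto_finsetSum _ fun i _ => ht i) hb

end Vale.Agent.P281.H189
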